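import Mathlib
import Vale.Agent.Lib.P065.Defs
import Vale.Agent.Lib.P065.Vertex
import Vale.Agent.Lib.P065.Perturb

/-!
Second-moment bound for halving lines (helper23, independent copy of helper93's report 1901).

For every finite planar point set in general position, every centre `c` and every positive
definite quadratic form `Q`: the sum of `Q (b - q)` over ordered halving pairs is at most
`4 * ∑ b, Q (b - c)`.  Consequences: the Euclidean form, the directional form, the strip bound.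
-/

namespace Vale.Agent.Lib.P065.H23

open scoped Classical
open Finset

/-- Signs at every vertex: `+1` on the positive side of a perturbed direction. -/
theorem exists_signs (P : Finset (ℝ × ℝ)) (hP : GenPos P) (va : ℝ × ℝ → ℝ × ℝ) :
    ∃ s : ℝ × ℝ → ℝ × ℝ → ℝ, (∀ b q, s b q = 1 ∨ s b q = -1) ∧
      (∀ b ∈ P, ∀ q ∈ P, q ≠ b → 0 < xc b (va b) q → s b q = 1) ∧
      (∀ b ∈ P, ∑ q ∈ P.filter (fun q => IsHalving P b q), s b q ≤ 1) := by
  have hex : ∀ b : ℝ × ℝ, ∃ v' : ℝ × ℝ, (∀ q ∈ P, q ≠ b → xc b v' q ≠ 0) ∧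
      (∀ q ∈ P, q ≠ b → 0 < xc b (va b) q → 0 < xc b v' q) :=
    fun b => perturb P b (va b) (fun q => 0 < xc b (va b) q) (fun q _ _ h => h)
  choose vp hvp1 hvp2 using hex
  refine ⟨fun b q => if 0 < xc b (vp b) q then 1 else -1, ?_, ?_, ?_⟩
  · intro b q
    by_cases h : 0 < xc b (vp b) q <;> simp [h]
  · intro b _ q hq hqb h
    simp [hvp2 b q hq hqb h]
  · intro b hb
    have hv := vertex P hP b (vp b) hb (hvp1 b)
    have hsplit : ∑ q ∈ P.filter (fun q => IsHalving P b q),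
        (if 0 < xc b (vp b) q then (1 : ℝ) else -1) =
        ((P.filter (fun q => IsHalving P b q ∧ 0 < xc b (vp b) q)).card : ℝ) -
          ((P.filter (fun q => IsHalving P b q ∧ xc b (vp b) q < 0)).card : ℝ) := by
      rw [Finset.sum_ite, Finset.filter_filter, Finset.filter_filter]
      have hneg : P.filter (fun q => IsHalving P b q ∧ ¬ 0 < xc b (vp b) q) =
          P.filter (fun q => IsHalving P b q ∧ xc b (vp b) q < 0) := by
        refine Finset.filter_congr (fun q hq => ?_)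
        constructor
        · rintro ⟨h1, h2⟩
          refine ⟨h1, lt_of_le_of_ne (not_lt.mp h2) ?_⟩
          exact hvp1 b q hq (fun h => h1.1 h.symm)
        · rintro ⟨h1, h2⟩
          exact ⟨h1, not_lt.mpr h2.le⟩
      rw [hneg]
      simp only [Finset.sum_const, nsmul_eq_mul, mul_one, mul_neg]
      ring
    rw [hsplit]
    have : ((P.filter (fun q => IsHalving P b q ∧ 0 < xc b (vp b) q)).card : ℝ) ≤
        ((P.filter (fun q => IsHalving P b q ∧ xc b (vp b) q < 0)).card : ℝ) + 1 := by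
      exact_mod_cast hv
    linarith

theorem offDiag_filter_eq (P : Finset (ℝ × ℝ)) :
    P.offDiag.filter (fun pq => IsHalving P pq.1 pq.2) =
      (P ×ˢ P).filter (fun pq => IsHalving P pq.1 pq.2) := by
  ext pq
  simp only [Finset.mem_filter, Finset.mem_offDiag, Finset.mem_product]
  constructor
  · rintro ⟨⟨h1, h2, _⟩, h4⟩
    exact ⟨⟨h1, h2⟩, h4⟩
  · rintro ⟨⟨h1, h2⟩, h4⟩
    exact ⟨⟨h1, h2, h4.1⟩, h4⟩

/-- Weighted double counting over ordered halving pairs. -/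
theorem weighted (P : Finset (ℝ × ℝ)) (s : ℝ × ℝ → ℝ × ℝ → ℝ)
    (hs : ∀ b ∈ P, ∑ q ∈ P.filter (fun q => IsHalving P b q), s b q ≤ 1)
    (w : ℝ × ℝ → ℝ) (hw : ∀ b ∈ P, 0 ≤ w b) :
    ∑ pq ∈ P.offDiag.filter (fun pq => IsHalving P pq.1 pq.2),
      (w pq.1 * s pq.1 pq.2 + w pq.2 * s pq.2 pq.1) ≤ 2 * ∑ b ∈ P, w b := by
  have hS1 : ∑ b ∈ P, ∑ q ∈ P, (if IsHalving P b q then w b * s b q else 0) ≤ ∑ b ∈ P, w b := by
    refine Finset.sum_le_sum (fun b hb => ?_)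
    rw [← Finset.sum_filter, ← Finset.mul_sum]
    calc w b * ∑ q ∈ P.filter (fun q => IsHalving P b q), s b q ≤ w b * 1 :=
          mul_le_mul_of_nonneg_left (hs b hb) (hw b hb)
      _ = w b := mul_one _
  have h1 : ∑ pq ∈ P.offDiag.filter (fun pq => IsHalving P pq.1 pq.2), w pq.1 * s pq.1 pq.2 =
      ∑ b ∈ P, ∑ q ∈ P, (if IsHalving P b q then w b * s b q else 0) := by
    rw [offDiag_filter_eq, Finset.sum_filter, Finset.sum_product]
  have h2 : ∑ pq ∈ P.offDiag.filter (fun pq => IsHalving P pq.1 pq.2), w pq.2 * s pq.2 pq.1 =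
      ∑ b ∈ P, ∑ q ∈ P, (if IsHalving P b q then w b * s b q else 0) := by
    rw [offDiag_filter_eq, Finset.sum_filter, Finset.sum_product, Finset.sum_comm]
    refine Finset.sum_congr rfl (fun b _ => Finset.sum_congr rfl (fun q _ => ?_))
    by_cases h : IsHalving P b q
    · have h' : IsHalving P q b := isHalving_symm P b q h
      simp [h, h']
    · have h' : ¬ IsHalving P q b := fun h' => h (isHalving_symm P q b h')
      simp [h, h']
  rw [Finset.sum_add_distrib, h1, h2]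
  linarith

/-- A positive definite binary quadratic form is nonnegative. -/
theorem qf_nonneg (A B C : ℝ) (hA : 0 < A) (hdet : 0 < A * C - B ^ 2) (z1 z2 : ℝ) :
    0 ≤ A * z1 ^ 2 + 2 * B * z1 * z2 + C * z2 ^ 2 := by
  have h : A * (A * z1 ^ 2 + 2 * B * z1 * z2 + C * z2 ^ 2) =
      (A * z1 + B * z2) ^ 2 + (A * C - B ^ 2) * z2 ^ 2 := by ring
  have h2 : 0 ≤ A * (A * z1 ^ 2 + 2 * B * z1 * z2 + C * z2 ^ 2) := by
    rw [h]; positivity
  exact nonneg_of_mul_nonneg_right h2 hA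

/-- The second-moment bound for a positive definite quadratic form. -/
theorem pd_bound (P : Finset (ℝ × ℝ)) (hP : GenPos P) (c : ℝ × ℝ) (A B C : ℝ) (hA : 0 < A)
    (hdet : 0 < A * C - B ^ 2) :
    ∑ pq ∈ P.offDiag.filter (fun pq => IsHalving P pq.1 pq.2),
        (A * (pq.1.1 - pq.2.1) ^ 2 + 2 * B * (pq.1.1 - pq.2.1) * (pq.1.2 - pq.2.2) +
          C * (pq.1.2 - pq.2.2) ^ 2) ≤
      4 * ∑ b ∈ P, (A * (b.1 - c.1) ^ 2 + 2 * B * (b.1 - c.1) * (b.2 - c.2) +
          C * (b.2 - c.2) ^ 2) := by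
  obtain ⟨s, hs1, hs2, hs3⟩ := exists_signs P hP
    (fun b => (-(A * (b.1 - c.1) + B * (b.2 - c.2)), -(B * (b.1 - c.1) + C * (b.2 - c.2))))
  have hw := weighted P s hs3
    (fun b => A * (b.1 - c.1) ^ 2 + 2 * B * (b.1 - c.1) * (b.2 - c.2) + C * (b.2 - c.2) ^ 2)
    (fun b _ => qf_nonneg A B C hA hdet _ _)
  have hpt : ∀ pq ∈ P.offDiag.filter (fun pq => IsHalving P pq.1 pq.2),
      (A * (pq.1.1 - pq.2.1) ^ 2 + 2 * B * (pq.1.1 - pq.2.1) * (pq.1.2 - pq.2.2) +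
          C * (pq.1.2 - pq.2.2) ^ 2) / 2 ≤
      (A * (pq.1.1 - c.1) ^ 2 + 2 * B * (pq.1.1 - c.1) * (pq.1.2 - c.2) +
          C * (pq.1.2 - c.2) ^ 2) * s pq.1 pq.2 +
      (A * (pq.2.1 - c.1) ^ 2 + 2 * B * (pq.2.1 - c.1) * (pq.2.2 - c.2) +
          C * (pq.2.2 - c.2) ^ 2) * s pq.2 pq.1 := by
    rintro ⟨b, q⟩ hpq
    simp only [Finset.mem_filter, Finset.mem_offDiag] at hpq
    obtain ⟨⟨hb, hq, hbq⟩, _⟩ := hpq
    simp only
    have hab := hs2 b hb q hq (Ne.symm hbq)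
    have hba := hs2 q hq b hb hbq
    unfold xc at hab hba
    simp only at hab hba
    have hQ0 := qf_nonneg A B C hA hdet (b.1 - q.1) (b.2 - q.2)
    have hQs := qf_nonneg A B C hA hdet ((b.1 - c.1) + (q.1 - c.1)) ((b.2 - c.2) + (q.2 - c.2))
    -- the two directional quantities
    set abq : ℝ := -(A * (b.1 - c.1) + B * (b.2 - c.2)) * (q.1 - b.1) +
      -(B * (b.1 - c.1) + C * (b.2 - c.2)) * (q.2 - b.2) with habq
    set aqb : ℝ := -(A * (q.1 - c.1) + B * (q.2 - c.2)) * (b.1 - q.1) +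
      -(B * (q.1 - c.1) + C * (q.2 - c.2)) * (b.2 - q.2) with haqb
    have hsum : abq + aqb = A * (b.1 - q.1) ^ 2 + 2 * B * (b.1 - q.1) * (b.2 - q.2) +
        C * (b.2 - q.2) ^ 2 := by
      rw [habq, haqb]; ring
    -- positivity of the form at b - q
    have hQpos : 0 < A * (b.1 - q.1) ^ 2 + 2 * B * (b.1 - q.1) * (b.2 - q.2) +
        C * (b.2 - q.2) ^ 2 := by
      rcases lt_or_eq_of_le hQ0 with h | h
      · exact h
      · exfalso
        have h' : A * (A * (b.1 - q.1) ^ 2 + 2 * B * (b.1 - q.1) * (b.2 - q.2) +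
            C * (b.2 - q.2) ^ 2) =
            (A * (b.1 - q.1) + B * (b.2 - q.2)) ^ 2 + (A * C - B ^ 2) * (b.2 - q.2) ^ 2 := by ring
        rw [← h, mul_zero] at h'
        have hz2 : (b.2 - q.2) ^ 2 = 0 := by
          have h3 : 0 ≤ (A * (b.1 - q.1) + B * (b.2 - q.2)) ^ 2 := sq_nonneg _
          have h4 : 0 ≤ (A * C - B ^ 2) * (b.2 - q.2) ^ 2 := by positivity
          have h5 : (A * C - B ^ 2) * (b.2 - q.2) ^ 2 = 0 := by linarith
          rcases mul_eq_zero.mp h5 with h6 | h6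
          · exact absurd h6 hdet.ne'
          · exact h6
        have hz2' : b.2 - q.2 = 0 := by simpa using hz2
        have hz1 : (A * (b.1 - q.1) + B * (b.2 - q.2)) ^ 2 = 0 := by
          rw [hz2] at h'; linarith
        have hz1' : A * (b.1 - q.1) = 0 := by
          have : A * (b.1 - q.1) + B * (b.2 - q.2) = 0 := by simpa using hz1
          rw [hz2'] at this; linarith
        have hz1'' : b.1 - q.1 = 0 := by
          rcases mul_eq_zero.mp hz1' with h6 | h6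
          · exact absurd h6 hA.ne'
          · exact h6
        exact hbq (Prod.ext (sub_eq_zero.mp hz1'') (sub_eq_zero.mp hz2'))
    have hwq : (A * (q.1 - c.1) ^ 2 + 2 * B * (q.1 - c.1) * (q.2 - c.2) + C * (q.2 - c.2) ^ 2) -
        (A * (b.1 - c.1) ^ 2 + 2 * B * (b.1 - c.1) * (b.2 - c.2) + C * (b.2 - c.2) ^ 2) =
        (A * (b.1 - q.1) ^ 2 + 2 * B * (b.1 - q.1) * (b.2 - q.2) + C * (b.2 - q.2) ^ 2) -
          2 * abq := by
      rw [habq]; ring
    have hwb : (A * (b.1 - c.1) ^ 2 + 2 * B * (b.1 - c.1) * (b.2 - c.2) + C * (b.2 - c.2) ^ 2) -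
        (A * (q.1 - c.1) ^ 2 + 2 * B * (q.1 - c.1) * (q.2 - c.2) + C * (q.2 - c.2) ^ 2) =
        (A * (b.1 - q.1) ^ 2 + 2 * B * (b.1 - q.1) * (b.2 - q.2) + C * (b.2 - q.2) ^ 2) -
          2 * aqb := by
      rw [haqb]; ring
    have hpar : (A * (b.1 - c.1) ^ 2 + 2 * B * (b.1 - c.1) * (b.2 - c.2) + C * (b.2 - c.2) ^ 2) +
        (A * (q.1 - c.1) ^ 2 + 2 * B * (q.1 - c.1) * (q.2 - c.2) + C * (q.2 - c.2) ^ 2) =
        (A * (b.1 - q.1) ^ 2 + 2 * B * (b.1 - q.1) * (b.2 - q.2) + C * (b.2 - q.2) ^ 2) / 2 +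
        (A * ((b.1 - c.1) + (q.1 - c.1)) ^ 2 +
          2 * B * ((b.1 - c.1) + (q.1 - c.1)) * ((b.2 - c.2) + (q.2 - c.2)) +
          C * ((b.2 - c.2) + (q.2 - c.2)) ^ 2) / 2 := by ring
    rcases hs1 b q with hsb | hsb <;> rcases hs1 q b with hsq | hsq
    · rw [hsb, hsq]; linarith
    · -- s q b = -1, so aqb ≤ 0
      have haq : aqb ≤ 0 := by
        by_contra hc
        have := hba (not_le.mp hc)
        rw [hsq] at this; norm_num at this
      rw [hsb, hsq]; linarith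
    · have hab' : abq ≤ 0 := by
        by_contra hc
        have := hab (not_le.mp hc)
        rw [hsb] at this; norm_num at this
      rw [hsb, hsq]; linarith
    · exfalso
      have hab' : abq ≤ 0 := by
        by_contra hc
        have := hab (not_le.mp hc)
        rw [hsb] at this; norm_num at this
      have haq : aqb ≤ 0 := by
        by_contra hc
        have := hba (not_le.mp hc)
        rw [hsq] at this; norm_num at this
      linarith
  have hsumle := (Finset.sum_le_sum hpt).trans hw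
  rw [← Finset.sum_div] at hsumle
  linarith

/-- Euclidean form: the squared lengths of the halving segments (each counted twice). -/
theorem euclid_bound (P : Finset (ℝ × ℝ)) (hP : GenPos P) (c : ℝ × ℝ) :
    ∑ pq ∈ P.offDiag.filter (fun pq => IsHalving P pq.1 pq.2),
        ((pq.1.1 - pq.2.1) ^ 2 + (pq.1.2 - pq.2.2) ^ 2) ≤
      4 * ∑ b ∈ P, ((b.1 - c.1) ^ 2 + (b.2 - c.2) ^ 2) := by
  have h := pd_bound P hP c 1 0 1 (by norm_num) (by norm_num)
  calc ∑ pq ∈ P.offDiag.filter (fun pq => IsHalving P pq.1 pq.2),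
        ((pq.1.1 - pq.2.1) ^ 2 + (pq.1.2 - pq.2.2) ^ 2)
      = ∑ pq ∈ P.offDiag.filter (fun pq => IsHalving P pq.1 pq.2),
        (1 * (pq.1.1 - pq.2.1) ^ 2 + 2 * 0 * (pq.1.1 - pq.2.1) * (pq.1.2 - pq.2.2) +
          1 * (pq.1.2 - pq.2.2) ^ 2) := Finset.sum_congr rfl (fun pq _ => by ring)
    _ ≤ 4 * ∑ b ∈ P, (1 * (b.1 - c.1) ^ 2 + 2 * 0 * (b.1 - c.1) * (b.2 - c.2) +
          1 * (b.2 - c.2) ^ 2) := h
    _ = 4 * ∑ b ∈ P, ((b.1 - c.1) ^ 2 + (b.2 - c.2) ^ 2) := by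
        congr 1
        exact Finset.sum_congr rfl (fun b _ => by ring)

/-- Directional form: second moments of the halving segments in any direction `u`. -/
theorem direction_bound (P : Finset (ℝ × ℝ)) (hP : GenPos P) (c u : ℝ × ℝ) :
    ∑ pq ∈ P.offDiag.filter (fun pq => IsHalving P pq.1 pq.2),
        (u.1 * (pq.1.1 - pq.2.1) + u.2 * (pq.1.2 - pq.2.2)) ^ 2 ≤
      4 * ∑ b ∈ P, (u.1 * (b.1 - c.1) + u.2 * (b.2 - c.2)) ^ 2 := by
  set L0 := ∑ pq ∈ P.offDiag.filter (fun pq => IsHalving P pq.1 pq.2),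
        (u.1 * (pq.1.1 - pq.2.1) + u.2 * (pq.1.2 - pq.2.2)) ^ 2 with hL0
  set L1 := ∑ pq ∈ P.offDiag.filter (fun pq => IsHalving P pq.1 pq.2),
        ((pq.1.1 - pq.2.1) ^ 2 + (pq.1.2 - pq.2.2) ^ 2) with hL1
  set R0 := ∑ b ∈ P, (u.1 * (b.1 - c.1) + u.2 * (b.2 - c.2)) ^ 2 with hR0
  set R1 := ∑ b ∈ P, ((b.1 - c.1) ^ 2 + (b.2 - c.2) ^ 2) with hR1
  have hL1nn : 0 ≤ L1 := Finset.sum_nonneg (fun pq _ => by positivity)
  have hR1nn : 0 ≤ R1 := Finset.sum_nonneg (fun b _ => by positivity)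
  have heps : ∀ ε : ℝ, 0 < ε → L0 + ε * L1 ≤ 4 * (R0 + ε * R1) := by
    intro ε hε
    have hA : 0 < u.1 ^ 2 + ε := by positivity
    have hdet : 0 < (u.1 ^ 2 + ε) * (u.2 ^ 2 + ε) - (u.1 * u.2) ^ 2 := by
      have : (u.1 ^ 2 + ε) * (u.2 ^ 2 + ε) - (u.1 * u.2) ^ 2 =
          ε * (u.1 ^ 2 + u.2 ^ 2) + ε ^ 2 := by ring
      rw [this]; positivity
    have h := pd_bound P hP c (u.1 ^ 2 + ε) (u.1 * u.2) (u.2 ^ 2 + ε) hA hdet
    have hl : L0 + ε * L1 = ∑ pq ∈ P.offDiag.filter (fun pq => IsHalving P pq.1 pq.2),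
        ((u.1 ^ 2 + ε) * (pq.1.1 - pq.2.1) ^ 2 +
          2 * (u.1 * u.2) * (pq.1.1 - pq.2.1) * (pq.1.2 - pq.2.2) +
          (u.2 ^ 2 + ε) * (pq.1.2 - pq.2.2) ^ 2) := by
      rw [hL0, hL1, Finset.mul_sum, ← Finset.sum_add_distrib]
      exact Finset.sum_congr rfl (fun pq _ => by ring)
    have hr : R0 + ε * R1 = ∑ b ∈ P, ((u.1 ^ 2 + ε) * (b.1 - c.1) ^ 2 +
          2 * (u.1 * u.2) * (b.1 - c.1) * (b.2 - c.2) + (u.2 ^ 2 + ε) * (b.2 - c.2) ^ 2) := by
      rw [hR0, hR1, Finset.mul_sum, ← Finset.sum_add_distrib]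
      exact Finset.sum_congr rfl (fun b _ => by ring)
    rw [hl, hr]
    exact h
  refine le_of_forall_pos_le_add (fun δ hδ => ?_)
  have hε : 0 < δ / (4 * R1 + 1) := by positivity
  have h1 := heps (δ / (4 * R1 + 1)) hε
  have h2 : 0 ≤ δ / (4 * R1 + 1) * L1 := by positivity
  have h3 : 4 * (δ / (4 * R1 + 1) * R1) ≤ δ := by
    have h4 : 4 * (δ / (4 * R1 + 1) * R1) = δ * (4 * R1 / (4 * R1 + 1)) := by
      field_simp
    rw [h4]
    have h5 : 4 * R1 / (4 * R1 + 1) ≤ 1 := by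
      rw [div_le_one (by positivity)]; linarith
    calc δ * (4 * R1 / (4 * R1 + 1)) ≤ δ * 1 := mul_le_mul_of_nonneg_left h5 hδ.le
      _ = δ := mul_one _
  linarith

/-- Strip bound: for every point `c`, at most `|P|` ordered halving pairs (so at most `|P| / 2`
halving lines) have the foot of the perpendicular from `c` strictly inside the segment. -/
theorem strip_bound (P : Finset (ℝ × ℝ)) (hP : GenPos P) (c : ℝ × ℝ) :
    ((P.offDiag.filter (fun pq => IsHalving P pq.1 pq.2)).filter (fun pq =>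
        0 < (c.1 - pq.1.1) * (pq.2.1 - pq.1.1) + (c.2 - pq.1.2) * (pq.2.2 - pq.1.2) ∧
        0 < (c.1 - pq.2.1) * (pq.1.1 - pq.2.1) + (c.2 - pq.2.2) * (pq.1.2 - pq.2.2))).card
      ≤ P.card := by
  obtain ⟨s, hs1, hs2, hs3⟩ := exists_signs P hP (fun b => (c.1 - b.1, c.2 - b.2))
  have hw := weighted P s hs3 (fun _ => 1) (fun _ _ => zero_le_one)
  have hpt : ∀ pq ∈ P.offDiag.filter (fun pq => IsHalving P pq.1 pq.2),
      (if 0 < (c.1 - pq.1.1) * (pq.2.1 - pq.1.1) + (c.2 - pq.1.2) * (pq.2.2 - pq.1.2) ∧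
        0 < (c.1 - pq.2.1) * (pq.1.1 - pq.2.1) + (c.2 - pq.2.2) * (pq.1.2 - pq.2.2)
        then (2 : ℝ) else 0) ≤ 1 * s pq.1 pq.2 + 1 * s pq.2 pq.1 := by
    rintro ⟨b, q⟩ hpq
    simp only [Finset.mem_filter, Finset.mem_offDiag] at hpq
    obtain ⟨⟨hb, hq, hbq⟩, _⟩ := hpq
    simp only
    have hab := hs2 b hb q hq (Ne.symm hbq)
    have hba := hs2 q hq b hb hbq
    unfold xc at hab hba
    simp only at hab hba
    have hsum : ((c.1 - b.1) * (q.1 - b.1) + (c.2 - b.2) * (q.2 - b.2)) +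
        ((c.1 - q.1) * (b.1 - q.1) + (c.2 - q.2) * (b.2 - q.2)) =
        (b.1 - q.1) ^ 2 + (b.2 - q.2) ^ 2 := by ring
    have hpos : 0 < (b.1 - q.1) ^ 2 + (b.2 - q.2) ^ 2 := by
      rcases lt_or_eq_of_le (add_nonneg (sq_nonneg (b.1 - q.1)) (sq_nonneg (b.2 - q.2))) with
        h | h
      · exact h
      · exfalso
        have h1 : (b.1 - q.1) ^ 2 = 0 := by nlinarith [sq_nonneg (b.1 - q.1), sq_nonneg (b.2 - q.2)]
        have h2 : (b.2 - q.2) ^ 2 = 0 := by nlinarith [sq_nonneg (b.1 - q.1), sq_nonneg (b.2 - q.2)]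
        have h1' : b.1 - q.1 = 0 := by simpa using h1
        have h2' : b.2 - q.2 = 0 := by simpa using h2
        exact hbq (Prod.ext (sub_eq_zero.mp h1') (sub_eq_zero.mp h2'))
    by_cases hcond : 0 < (c.1 - b.1) * (q.1 - b.1) + (c.2 - b.2) * (q.2 - b.2) ∧
        0 < (c.1 - q.1) * (b.1 - q.1) + (c.2 - q.2) * (b.2 - q.2)
    · rw [if_pos hcond, hab hcond.1, hba hcond.2]; norm_num
    · rw [if_neg hcond]
      rcases hs1 b q with hsb | hsb <;> rcases hs1 q b with hsq | hsq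
      · rw [hsb, hsq]; norm_num
      · rw [hsb, hsq]; norm_num
      · rw [hsb, hsq]; norm_num
      · exfalso
        have hab' : (c.1 - b.1) * (q.1 - b.1) + (c.2 - b.2) * (q.2 - b.2) ≤ 0 := by
          by_contra hc
          have := hab (not_le.mp hc)
          rw [hsb] at this; norm_num at this
        have hba' : (c.1 - q.1) * (b.1 - q.1) + (c.2 - q.2) * (b.2 - q.2) ≤ 0 := by
          by_contra hc
          have := hba (not_le.mp hc)
          rw [hsq] at this; norm_num at this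
        linarith
  have hsum := (Finset.sum_le_sum hpt).trans hw
  rw [← Finset.sum_filter, Finset.sum_const, nsmul_eq_mul, Finset.sum_const, nsmul_eq_mul,
    mul_one] at hsum
  have : ((((P.offDiag.filter (fun pq => IsHalving P pq.1 pq.2)).filter (fun pq =>
        0 < (c.1 - pq.1.1) * (pq.2.1 - pq.1.1) + (c.2 - pq.1.2) * (pq.2.2 - pq.1.2) ∧
        0 < (c.1 - pq.2.1) * (pq.1.1 - pq.2.1) + (c.2 - pq.2.2) * (pq.1.2 - pq.2.2))).card : ℕ) :
        ℝ) ≤ (P.card : ℝ) := by linarith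
  exact_mod_cast this

/-- The three statements together. -/
theorem second_moment (P : Finset (ℝ × ℝ)) (hP : GenPos P) (c u : ℝ × ℝ) :
    (∑ pq ∈ P.offDiag.filter (fun pq => IsHalving P pq.1 pq.2),
        (u.1 * (pq.1.1 - pq.2.1) + u.2 * (pq.1.2 - pq.2.2)) ^ 2 ≤
      4 * ∑ b ∈ P, (u.1 * (b.1 - c.1) + u.2 * (b.2 - c.2)) ^ 2) ∧
    (∑ pq ∈ P.offDiag.filter (fun pq => IsHalving P pq.1 pq.2),
        ((pq.1.1 - pq.2.1) ^ 2 + (pq.1.2 - pq.2.2) ^ 2) ≤
      4 * ∑ b ∈ P, ((b.1 - c.1) ^ 2 + (b.2 - c.2) ^ 2)) ∧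
    ((P.offDiag.filter (fun pq => IsHalving P pq.1 pq.2)).filter (fun pq =>
        0 < (c.1 - pq.1.1) * (pq.2.1 - pq.1.1) + (c.2 - pq.1.2) * (pq.2.2 - pq.1.2) ∧
        0 < (c.1 - pq.2.1) * (pq.1.1 - pq.2.1) + (c.2 - pq.2.2) * (pq.1.2 - pq.2.2))).card
      ≤ P.card :=
  ⟨direction_bound P hP c u, euclid_bound P hP c, strip_bound P hP c⟩

end Vale.Agent.Lib.P065.H23
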